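/-
helper41 — S0466 squad (coordinator helper62), leaf EXT2c: `false_of_two_regular`.
Statement copied verbatim from `Crest/Agent/Helper62/S0466/Blueprint.lean`.
Maths: notes/s0466/PROOF.md (EXT2c).
-/
import Crest.Agent.Helper62.S0466.Defs

set_option autoImplicit false

namespace Crest.Agent.Helper41.S0466

open Crest.Agent.Helper62.S0466

variable {V E : Type} [DecidableEq V] [DecidableEq E]

set_option linter.unusedSectionVars false

/-- Double counting: summing the star sums of `h` over the vertices `p ∈ P` counts every edge of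
`F` once for each of its two (distinct) ends lying in `P`. -/
theorem sum_star_sum {ends : E → V × V} {A : Finset V} {F : Finset E} (hWF : WF ends A F)
    (P : Finset V) (h : E → ℝ) :
    ∑ p ∈ P, ∑ g ∈ star ends F p, h g =
      ∑ g ∈ F, ((if (ends g).1 ∈ P then (1 : ℝ) else 0) +
        (if (ends g).2 ∈ P then (1 : ℝ) else 0)) * h g := by
  unfold Crest.Agent.Helper62.S0466.star
  simp_rw [Finset.sum_filter]
  rw [Finset.sum_comm]
  refine Finset.sum_congr rfl fun g hg => ?_
  have hne := (hWF g hg).2.2
  have hsplit : ∀ p, (if (ends g).1 = p ∨ (ends g).2 = p then h g else 0) =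
      (if (ends g).1 = p then h g else 0) + (if (ends g).2 = p then h g else 0) := by
    intro p
    by_cases h1 : (ends g).1 = p
    · have h2 : (ends g).2 ≠ p := fun h2 => hne (h1.trans h2.symm)
      simp [h1, h2]
    · simp [h1]
  simp_rw [hsplit]
  rw [Finset.sum_add_distrib, Finset.sum_ite_eq, Finset.sum_ite_eq]
  split_ifs <;> ring

/-- **EXT2c.** A point of `QQ`, positive on `F`, in a graph with all degrees two, with bijective
star map and without nontrivial tight odd set: impossible. -/
theorem false_of_two_regular {ends : E → V × V} {A : Finset V} {F : Finset E} (hWF : WF ends A F)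
    {x : E → ℝ} (hx : x ∈ QQ ends A F) (hpos : ∀ e ∈ F, 0 < x e) (hA : A.Nonempty)
    (hdeg2 : ∀ w ∈ A, (star ends F w).card = 2)
    (hinj : ∀ h : E → ℝ, (∀ e, e ∉ F → h e = 0) →
      (∀ w ∈ A, ∑ e ∈ star ends F w, h e = 0) → h = 0)
    (hsurj : ∀ y : V → ℝ, ∃ h : E → ℝ, (∀ e, e ∉ F → h e = 0) ∧
      ∀ w ∈ A, ∑ e ∈ star ends F w, h e = y w)
    (hnt : ∀ S : Finset V, S ⊆ A → Odd S.card → 3 ≤ S.card → S.card + 3 ≤ A.card →
      ∑ e ∈ cut ends F S, x e ≠ 1) :
    False := by
  obtain ⟨_hx0, hxnn, hxstar, hxcut⟩ := hx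
  obtain ⟨v, hv⟩ := hA
  obtain ⟨e, f, hef, hstar⟩ := Finset.card_eq_two.1 (hdeg2 v hv)
  have he : e ∈ star ends F v := by rw [hstar]; simp
  have hf : f ∈ star ends F v := by rw [hstar]; simp
  have heF : e ∈ F := (Finset.mem_filter.1 he).1
  have hfF : f ∈ F := (Finset.mem_filter.1 hf).1
  have hev : (ends e).1 = v ∨ (ends e).2 = v := (Finset.mem_filter.1 he).2
  have hfv : (ends f).1 = v ∨ (ends f).2 = v := (Finset.mem_filter.1 hf).2
  -- the other ends `u` of `e` and `w` of `f`
  obtain ⟨u, huA, huv, heu⟩ : ∃ u, u ∈ A ∧ u ≠ v ∧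
      (((ends e).1 = v ∧ (ends e).2 = u) ∨ ((ends e).1 = u ∧ (ends e).2 = v)) := by
    obtain ⟨h1, h2, h3⟩ := hWF e heF
    rcases hev with h | h
    · exact ⟨(ends e).2, h2, fun h' => h3 (h.trans h'.symm), Or.inl ⟨h, rfl⟩⟩
    · exact ⟨(ends e).1, h1, fun h' => h3 (h'.trans h.symm), Or.inr ⟨rfl, h⟩⟩
  obtain ⟨w, hwA, hwv, hfw⟩ : ∃ w, w ∈ A ∧ w ≠ v ∧
      (((ends f).1 = v ∧ (ends f).2 = w) ∨ ((ends f).1 = w ∧ (ends f).2 = v)) := by
    obtain ⟨h1, h2, h3⟩ := hWF f hfF
    rcases hfv with h | h
    · exact ⟨(ends f).2, h2, fun h' => h3 (h.trans h'.symm), Or.inl ⟨h, rfl⟩⟩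
    · exact ⟨(ends f).1, h1, fun h' => h3 (h'.trans h.symm), Or.inr ⟨rfl, h⟩⟩
  -- membership of `e`, `f` in stars
  have hestar : ∀ z, e ∈ star ends F z ↔ (z = v ∨ z = u) := by
    intro z
    unfold Crest.Agent.Helper62.S0466.star
    rw [Finset.mem_filter]
    rcases heu with ⟨h1, h2⟩ | ⟨h1, h2⟩
    · rw [h1, h2]
      constructor
      · rintro ⟨-, h | h⟩
        · exact Or.inl h.symm
        · exact Or.inr h.symm
      · rintro (h | h)
        · exact ⟨heF, Or.inl h.symm⟩
        · exact ⟨heF, Or.inr h.symm⟩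
    · rw [h1, h2]
      constructor
      · rintro ⟨-, h | h⟩
        · exact Or.inr h.symm
        · exact Or.inl h.symm
      · rintro (h | h)
        · exact ⟨heF, Or.inr h.symm⟩
        · exact ⟨heF, Or.inl h.symm⟩
  have hfstar : ∀ z, f ∈ star ends F z ↔ (z = v ∨ z = w) := by
    intro z
    unfold Crest.Agent.Helper62.S0466.star
    rw [Finset.mem_filter]
    rcases hfw with ⟨h1, h2⟩ | ⟨h1, h2⟩
    · rw [h1, h2]
      constructor
      · rintro ⟨-, h | h⟩
        · exact Or.inl h.symm
        · exact Or.inr h.symm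
      · rintro (h | h)
        · exact ⟨hfF, Or.inl h.symm⟩
        · exact ⟨hfF, Or.inr h.symm⟩
    · rw [h1, h2]
      constructor
      · rintro ⟨-, h | h⟩
        · exact Or.inr h.symm
        · exact Or.inl h.symm
      · rintro (h | h)
        · exact ⟨hfF, Or.inr h.symm⟩
        · exact ⟨hfF, Or.inl h.symm⟩
  by_cases huw : u = w
  · -- a double edge: `ind {e} - ind {f}` is a nonzero vector in the kernel of the star map
    subst huw
    have hsupp : ∀ g, g ∉ F →
        ((if g = e then (1 : ℝ) else 0) - (if g = f then (1 : ℝ) else 0)) = 0 := by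
      intro g hg
      have h1 : g ≠ e := fun h => hg (h ▸ heF)
      have h2 : g ≠ f := fun h => hg (h ▸ hfF)
      simp [h1, h2]
    have hsum : ∀ z ∈ A, ∑ g ∈ star ends F z,
        ((if g = e then (1 : ℝ) else 0) - (if g = f then (1 : ℝ) else 0)) = 0 := by
      intro z _
      rw [Finset.sum_sub_distrib, Finset.sum_ite_eq', Finset.sum_ite_eq']
      have hiff : e ∈ star ends F z ↔ f ∈ star ends F z := by rw [hestar, hfstar]
      by_cases h1 : e ∈ star ends F z
      · rw [if_pos h1, if_pos (hiff.1 h1), sub_self]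
      · rw [if_neg h1, if_neg (fun h => h1 (hiff.2 h)), sub_self]
    have hh := hinj (fun g => (if g = e then (1 : ℝ) else 0) - (if g = f then (1 : ℝ) else 0))
      hsupp hsum
    have hhe := congrFun hh e
    simp [hef] at hhe
  · -- three distinct vertices `u, v, w`
    have hScard : ({u, v, w} : Finset V).card = 3 :=
      Finset.card_eq_three.2 ⟨u, v, w, huv, huw, Ne.symm hwv, rfl⟩
    have hSA : ({u, v, w} : Finset V) ⊆ A := by
      intro z hz
      simp only [Finset.mem_insert, Finset.mem_singleton] at hz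
      rcases hz with rfl | rfl | rfl <;> assumption
    have hSodd : Odd ({u, v, w} : Finset V).card := by rw [hScard]; decide
    -- the edges inside `S`
    have heS : (ends e).1 ∈ ({u, v, w} : Finset V) ∧ (ends e).2 ∈ ({u, v, w} : Finset V) := by
      rcases heu with ⟨h1, h2⟩ | ⟨h1, h2⟩ <;> rw [h1, h2] <;> simp
    have hfS : (ends f).1 ∈ ({u, v, w} : Finset V) ∧ (ends f).2 ∈ ({u, v, w} : Finset V) := by
      rcases hfw with ⟨h1, h2⟩ | ⟨h1, h2⟩ <;> rw [h1, h2] <;> simp
    have hxef : x e + x f = 1 := by
      have := hxstar v hv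
      rw [hstar, Finset.sum_pair hef] at this
      exact this
    -- double counting over `S`
    have key : (3 : ℝ) = ∑ g ∈ cut ends F {u, v, w}, x g +
        2 * ∑ g ∈ F.filter (fun g => (ends g).1 ∈ ({u, v, w} : Finset V) ∧
          (ends g).2 ∈ ({u, v, w} : Finset V)), x g := by
      have h1 := sum_star_sum hWF ({u, v, w} : Finset V) x
      have h2 : ∑ p ∈ ({u, v, w} : Finset V), ∑ g ∈ star ends F p, x g = 3 := by
        rw [Finset.sum_congr rfl (fun p hp => hxstar p (hSA hp))]
        simp [hScard]
      rw [h2] at h1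
      rw [h1]
      unfold Crest.Agent.Helper62.S0466.cut
      rw [Finset.sum_filter, Finset.sum_filter, Finset.mul_sum, ← Finset.sum_add_distrib]
      refine Finset.sum_congr rfl fun g _ => ?_
      split_ifs <;> first | ring1 | (exfalso; tauto)
    have hsub : ({e, f} : Finset E) ⊆ F.filter (fun g => (ends g).1 ∈ ({u, v, w} : Finset V) ∧
          (ends g).2 ∈ ({u, v, w} : Finset V)) := by
      intro g hg
      simp only [Finset.mem_insert, Finset.mem_singleton] at hg
      rcases hg with rfl | rfl
      · exact Finset.mem_filter.2 ⟨heF, heS⟩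
      · exact Finset.mem_filter.2 ⟨hfF, hfS⟩
    have hin : 1 ≤ ∑ g ∈ F.filter (fun g => (ends g).1 ∈ ({u, v, w} : Finset V) ∧
          (ends g).2 ∈ ({u, v, w} : Finset V)), x g := by
      have := Finset.sum_le_sum_of_subset_of_nonneg (f := x) hsub (fun g _ _ => hxnn g)
      rw [Finset.sum_pair hef, hxef] at this
      exact this
    have hcut1 : 1 ≤ ∑ g ∈ cut ends F {u, v, w}, x g := hxcut _ hSA hSodd
    have hcut : ∑ g ∈ cut ends F {u, v, w}, x g = 1 := by linarith
    have hin1 : ∑ g ∈ F.filter (fun g => (ends g).1 ∈ ({u, v, w} : Finset V) ∧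
          (ends g).2 ∈ ({u, v, w} : Finset V)), x g = 1 := by linarith
    -- `|A| < 6`
    have hA5 : ¬ (({u, v, w} : Finset V).card + 3 ≤ A.card) := fun h =>
      hnt _ hSA hSodd (by rw [hScard]) h hcut
    -- `|A|` is even
    have hAeven : Even A.card := by
      by_contra hodd
      rw [Nat.not_even_iff_odd] at hodd
      have h1 := hxcut A (Finset.Subset.refl A) hodd
      have h2 : cut ends F A = ∅ := by
        unfold Crest.Agent.Helper62.S0466.cut
        rw [Finset.filter_eq_empty_iff]
        intro g hg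
        obtain ⟨ha, hb, -⟩ := hWF g hg
        simp [ha, hb]
      rw [h2, Finset.sum_empty] at h1
      linarith
    have hA3 : 3 ≤ A.card := by
      have := Finset.card_le_card hSA
      rw [hScard] at this
      exact this
    have hA4 : A.card = 4 := by
      obtain ⟨k, hk⟩ := hAeven
      rw [hScard] at hA5
      omega
    -- the fourth vertex
    obtain ⟨t, ht⟩ : ∃ t, A \ ({u, v, w} : Finset V) = {t} := by
      apply Finset.card_eq_one.1
      rw [Finset.card_sdiff_of_subset hSA, hA4, hScard]
    have htmem : t ∈ A \ ({u, v, w} : Finset V) := by rw [ht]; simp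
    have htA : t ∈ A := (Finset.mem_sdiff.1 htmem).1
    have htS : t ∉ ({u, v, w} : Finset V) := (Finset.mem_sdiff.1 htmem).2
    have htu : t ≠ u := fun h => htS (by simp [h])
    have htv : t ≠ v := fun h => htS (by simp [h])
    have htw : t ≠ w := fun h => htS (by simp [h])
    have hAcases : ∀ z ∈ A, z = u ∨ z = v ∨ z = w ∨ z = t := by
      intro z hz
      by_cases hzS : z ∈ ({u, v, w} : Finset V)
      · simp only [Finset.mem_insert, Finset.mem_singleton] at hzS
        rcases hzS with h | h | h
        · exact Or.inl h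
        · exact Or.inr (Or.inl h)
        · exact Or.inr (Or.inr (Or.inl h))
      · have : z ∈ A \ ({u, v, w} : Finset V) := Finset.mem_sdiff.2 ⟨hz, hzS⟩
        rw [ht, Finset.mem_singleton] at this
        exact Or.inr (Or.inr (Or.inr this))
    -- the only edges inside `S` are `e` and `f`
    have hinner : ∀ g ∈ F, (ends g).1 ∈ ({u, v, w} : Finset V) →
        (ends g).2 ∈ ({u, v, w} : Finset V) → g = e ∨ g = f := by
      intro g hg ha hb
      by_contra hcon
      push Not at hcon
      have hg' : g ∉ ({e, f} : Finset E) := by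
        simp only [Finset.mem_insert, Finset.mem_singleton]
        exact fun h => h.elim hcon.1 hcon.2
      have hsub' : insert g ({e, f} : Finset E) ⊆
          F.filter (fun g => (ends g).1 ∈ ({u, v, w} : Finset V) ∧
            (ends g).2 ∈ ({u, v, w} : Finset V)) := by
        intro g' hg''
        rcases Finset.mem_insert.1 hg'' with rfl | h
        · exact Finset.mem_filter.2 ⟨hg, ha, hb⟩
        · exact hsub h
      have := Finset.sum_le_sum_of_subset_of_nonneg (f := x) hsub' (fun g _ _ => hxnn g)
      rw [Finset.sum_insert hg', Finset.sum_pair hef, hxef, hin1] at this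
      linarith [hpos g hg]
    -- every edge joins `{v, t}` and `{u, w}`
    have hbip : ∀ g ∈ F,
        ((((ends g).1 = v ∨ (ends g).1 = t) ∧ ((ends g).2 = u ∨ (ends g).2 = w)) ∨
          (((ends g).1 = u ∨ (ends g).1 = w) ∧ ((ends g).2 = v ∨ (ends g).2 = t))) := by
      intro g hg
      obtain ⟨ha, hb, hab⟩ := hWF g hg
      -- edges at `v` are `e`, `f`
      have hatv : ((ends g).1 = v ∨ (ends g).2 = v) → g = e ∨ g = f := by
        intro h
        have : g ∈ star ends F v := Finset.mem_filter.2 ⟨hg, h⟩
        rw [hstar] at this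
        simpa using this
      have hge : g = e → (((ends g).1 = v ∧ (ends g).2 = u) ∨ ((ends g).1 = u ∧ (ends g).2 = v)) := by
        rintro rfl; exact heu
      have hgf : g = f → (((ends g).1 = v ∧ (ends g).2 = w) ∨ ((ends g).1 = w ∧ (ends g).2 = v)) := by
        rintro rfl; exact hfw
      have hin' : (ends g).1 ∈ ({u, v, w} : Finset V) → (ends g).2 ∈ ({u, v, w} : Finset V) →
          g = e ∨ g = f := hinner g hg
      simp only [Finset.mem_insert, Finset.mem_singleton] at hin'
      rcases hAcases _ ha with h1 | h1 | h1 | h1 <;> rcases hAcases _ hb with h2 | h2 | h2 | h2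
      · exact absurd (h1.trans h2.symm) hab
      · exact Or.inr ⟨Or.inl h1, Or.inl h2⟩
      · -- both ends in `{u, w}`: an inner edge, so `e` or `f`, which contain `v`
        exfalso
        rcases hin' (Or.inl h1) (Or.inr (Or.inr h2)) with h | h
        · rcases hge h with ⟨h3, -⟩ | ⟨-, h4⟩
          · exact huv (h1.symm.trans h3)
          · exact hwv (h2.symm.trans h4)
        · rcases hgf h with ⟨h3, -⟩ | ⟨-, h4⟩
          · exact huv (h1.symm.trans h3)
          · exact hwv (h2.symm.trans h4)
      · exact Or.inr ⟨Or.inl h1, Or.inr h2⟩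
      · exact Or.inl ⟨Or.inl h1, Or.inl h2⟩
      · exact absurd (h1.trans h2.symm) hab
      · exact Or.inl ⟨Or.inl h1, Or.inr h2⟩
      · -- `v`–`t` edge: it is `e` or `f`, whose other end is `u` or `w`
        exfalso
        rcases hatv (Or.inl h1) with h | h
        · rcases hge h with ⟨-, h4⟩ | ⟨h3, -⟩
          · exact htu (h2.symm.trans h4)
          · exact huv (h3.symm.trans h1)
        · rcases hgf h with ⟨-, h4⟩ | ⟨h3, -⟩
          · exact htw (h2.symm.trans h4)
          · exact hwv (h3.symm.trans h1)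
      · exfalso
        rcases hin' (Or.inr (Or.inr h1)) (Or.inl h2) with h | h
        · rcases hge h with ⟨h3, -⟩ | ⟨-, h4⟩
          · exact hwv (h1.symm.trans h3)
          · exact huv (h2.symm.trans h4)
        · rcases hgf h with ⟨h3, -⟩ | ⟨-, h4⟩
          · exact hwv (h1.symm.trans h3)
          · exact huv (h2.symm.trans h4)
      · exact Or.inr ⟨Or.inr h1, Or.inl h2⟩
      · exact absurd (h1.trans h2.symm) hab
      · exact Or.inr ⟨Or.inr h1, Or.inr h2⟩
      · exact Or.inl ⟨Or.inr h1, Or.inl h2⟩
      · -- `t`–`v` edge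
        exfalso
        rcases hatv (Or.inr h2) with h | h
        · rcases hge h with ⟨h3, -⟩ | ⟨h3, -⟩
          · exact htv (h1.symm.trans h3)
          · exact htu (h1.symm.trans h3)
        · rcases hgf h with ⟨h3, -⟩ | ⟨h3, -⟩
          · exact htv (h1.symm.trans h3)
          · exact htw (h1.symm.trans h3)
      · exact Or.inl ⟨Or.inr h1, Or.inr h2⟩
      · exact absurd (h1.trans h2.symm) hab
    -- coefficients of the double count for `P = {v, t}` and `Q = {u, w}`
    have hcoefP : ∀ g ∈ F, ((if (ends g).1 ∈ ({v, t} : Finset V) then (1 : ℝ) else 0) +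
        (if (ends g).2 ∈ ({v, t} : Finset V) then (1 : ℝ) else 0)) = 1 := by
      intro g hg
      simp only [Finset.mem_insert, Finset.mem_singleton]
      rcases hbip g hg with ⟨h1, h2⟩ | ⟨h1, h2⟩
      · have h2' : ¬ ((ends g).2 = v ∨ (ends g).2 = t) := by
          rintro (h | h) <;> rcases h2 with h' | h'
          · exact huv (h'.symm.trans h)
          · exact hwv (h'.symm.trans h)
          · exact htu (h.symm.trans h')
          · exact htw (h.symm.trans h')
        rw [if_pos h1, if_neg h2']; norm_num
      · have h1' : ¬ ((ends g).1 = v ∨ (ends g).1 = t) := by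
          rintro (h | h) <;> rcases h1 with h' | h'
          · exact huv (h'.symm.trans h)
          · exact hwv (h'.symm.trans h)
          · exact htu (h.symm.trans h')
          · exact htw (h.symm.trans h')
        rw [if_neg h1', if_pos h2]; norm_num
    have hcoefQ : ∀ g ∈ F, ((if (ends g).1 ∈ ({u, w} : Finset V) then (1 : ℝ) else 0) +
        (if (ends g).2 ∈ ({u, w} : Finset V) then (1 : ℝ) else 0)) = 1 := by
      intro g hg
      simp only [Finset.mem_insert, Finset.mem_singleton]
      rcases hbip g hg with ⟨h1, h2⟩ | ⟨h1, h2⟩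
      · have h1' : ¬ ((ends g).1 = u ∨ (ends g).1 = w) := by
          rintro (h | h) <;> rcases h1 with h' | h'
          · exact huv (h.symm.trans h')
          · exact htu (h'.symm.trans h)
          · exact hwv (h.symm.trans h')
          · exact htw (h'.symm.trans h)
        rw [if_neg h1', if_pos h2]; norm_num
      · have h2' : ¬ ((ends g).2 = u ∨ (ends g).2 = w) := by
          rintro (h | h) <;> rcases h2 with h' | h'
          · exact huv (h.symm.trans h')
          · exact htu (h'.symm.trans h)
          · exact hwv (h.symm.trans h')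
          · exact htw (h'.symm.trans h)
        rw [if_pos h1, if_neg h2']; norm_num
    -- the star map is not onto
    obtain ⟨h, -, hh⟩ := hsurj (fun z => if z = v then 1 else 0)
    have hP : ∑ p ∈ ({v, t} : Finset V), ∑ g ∈ star ends F p, h g = ∑ g ∈ F, h g := by
      rw [sum_star_sum hWF]
      exact Finset.sum_congr rfl fun g hg => by rw [hcoefP g hg, one_mul]
    have hQ : ∑ p ∈ ({u, w} : Finset V), ∑ g ∈ star ends F p, h g = ∑ g ∈ F, h g := by
      rw [sum_star_sum hWF]
      exact Finset.sum_congr rfl fun g hg => by rw [hcoefQ g hg, one_mul]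
    rw [Finset.sum_pair (Ne.symm htv), hh v hv, hh t htA] at hP
    rw [Finset.sum_pair huw, hh u huA, hh w hwA] at hQ
    simp only [if_true, if_neg htv, if_neg huv, if_neg hwv] at hP hQ
    linarith

end Crest.Agent.Helper41.S0466
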